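import Mathlib.Logic.Relation
import Mathlib.Data.Nat.Notation

/-!
Pure type systems with de Bruijn indices, over an arbitrary type of sorts.
-/

namespace Vale.Agent.P340

universe u

/-- A pure type specification: sorts `S`, axioms `ax` and rules `rule`. -/
structure Spec (S : Type u) where
  ax : S → S → Prop
  rule : S → S → S → Prop

/-- Expressions modulo renaming of bound variables (de Bruijn indices).
`lam A M` is the abstraction with domain `A` and body `M`; `pi A B` is the product. -/
inductive Tm (S : Type u) : Type u where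
  | var : ℕ → Tm S
  | sort : S → Tm S
  | app : Tm S → Tm S → Tm S
  | lam : Tm S → Tm S → Tm S
  | pi : Tm S → Tm S → Tm S

variable {S : Type u}

namespace Tm

/-- Lifting of a renaming under a binder. -/
def up (r : ℕ → ℕ) : ℕ → ℕ
  | 0 => 0
  | n + 1 => r n + 1

/-- Renaming of the free variables. -/
def ren : (ℕ → ℕ) → Tm S → Tm S
  | r, var n => var (r n)
  | _, sort s => sort s
  | r, app M N => app (ren r M) (ren r N)
  | r, lam A M => lam (ren r A) (ren (up r) M)
  | r, pi A B => pi (ren r A) (ren (up r) B)

/-- Weakening: shift of all free variables by one. -/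
def wk (M : Tm S) : Tm S := ren Nat.succ M

/-- Lifting of a substitution under a binder. -/
def ups (σ : ℕ → Tm S) : ℕ → Tm S
  | 0 => var 0
  | n + 1 => wk (σ n)

/-- Simultaneous capture-avoiding substitution. -/
def sub : (ℕ → Tm S) → Tm S → Tm S
  | σ, var n => σ n
  | _, sort s => sort s
  | σ, app M N => app (sub σ M) (sub σ N)
  | σ, lam A M => lam (sub σ A) (sub (ups σ) M)
  | σ, pi A B => pi (sub σ A) (sub (ups σ) B)

/-- The substitution replacing the variable `0` by `N` and lowering the others. -/
def single (N : Tm S) : ℕ → Tm S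
  | 0 => N
  | n + 1 => var n

/-- `inst M N` is `M[x := N]`, where `x` is the variable `0` of `M`. -/
def inst (M N : Tm S) : Tm S := sub (single N) M

end Tm

open Tm

/-- One-step beta reduction, in any subexpression. -/
inductive Step : Tm S → Tm S → Prop where
  | beta (A M N : Tm S) : Step (app (lam A M) N) (inst M N)
  | appL {M M' : Tm S} (N : Tm S) : Step M M' → Step (app M N) (app M' N)
  | appR (M : Tm S) {N N' : Tm S} : Step N N' → Step (app M N) (app M N')
  | lamL {A A' : Tm S} (M : Tm S) : Step A A' → Step (lam A M) (lam A' M)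
  | lamR (A : Tm S) {M M' : Tm S} : Step M M' → Step (lam A M) (lam A M')
  | piL {A A' : Tm S} (B : Tm S) : Step A A' → Step (pi A B) (pi A' B)
  | piR (A : Tm S) {B B' : Tm S} : Step B B' → Step (pi A B) (pi A B')

/-- Beta reduction in any number of steps. -/
def Red : Tm S → Tm S → Prop := Relation.ReflTransGen Step

/-- Beta convertibility: the equivalence relation generated by `Step`. -/
def Conv : Tm S → Tm S → Prop := Relation.EqvGen Step

/-- The typing relation of the pure type system with specification `P`;
the head of the context is the type of the variable `0`. -/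
inductive Typ (P : Spec S) : List (Tm S) → Tm S → Tm S → Prop where
  | ax {s t : S} : P.ax s t → Typ P [] (sort s) (sort t)
  | var {Γ : List (Tm S)} {A : Tm S} {s : S} :
      Typ P Γ A (sort s) → Typ P (A :: Γ) (var 0) (wk A)
  | weak {Γ : List (Tm S)} {M B A : Tm S} {s : S} :
      Typ P Γ M B → Typ P Γ A (sort s) → Typ P (A :: Γ) (wk M) (wk B)
  | pi {Γ : List (Tm S)} {A B : Tm S} {s₁ s₂ s₃ : S} :
      Typ P Γ A (sort s₁) → Typ P (A :: Γ) B (sort s₂) → P.rule s₁ s₂ s₃ →
      Typ P Γ (pi A B) (sort s₃)
  | lam {Γ : List (Tm S)} {A M B : Tm S} {s : S} :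
      Typ P (A :: Γ) M B → Typ P Γ (pi A B) (sort s) → Typ P Γ (lam A M) (pi A B)
  | app {Γ : List (Tm S)} {M N A B : Tm S} :
      Typ P Γ M (pi A B) → Typ P Γ N A → Typ P Γ (app M N) (inst B N)
  | conv {Γ : List (Tm S)} {M A B : Tm S} {s : S} :
      Typ P Γ M A → Typ P Γ B (sort s) → Conv A B → Typ P Γ M B

/-- An expression is legal if it is the subject or the type of a derivable judgment. -/
def Legal (P : Spec S) (M : Tm S) : Prop :=
  ∃ Γ A, Typ P Γ M A ∨ Typ P Γ A M

/-- Beta-normal forms. -/
def Normal (M : Tm S) : Prop := ∀ N, ¬ Step M N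

/-- Weak normalization: every legal expression reduces to a beta-normal form. -/
def WN (P : Spec S) : Prop :=
  ∀ M, Legal P M → ∃ N, Red M N ∧ Normal N

/-- Strong normalization: no legal expression starts an infinite reduction sequence. -/
def SN (P : Spec S) : Prop :=
  ∀ M, Legal P M → ¬ ∃ f : ℕ → Tm S, f 0 = M ∧ ∀ n, Step (f n) (f (n + 1))

end Vale.Agent.P340
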